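import Vale.Agent.P343.H741.Iface

/-!
Row C: counting lost classes.
-/

namespace Vale.Agent.P343.H741

variable {Q : Type}

theorem self_mem_cl {e : NB Q} {d : Bool} {x : Q} (h : Pt e d x) : x ∈ cl e d x := ⟨h, h⟩

theorem cl_eq_of_mem (hP : PtsFacts Q) {e : NB Q} (he : e * e = e) {d : Bool} {x y : Q}
    (h : y ∈ cl e d x) : cl e d y = cl e d x := by
  ext z
  constructor
  · rintro ⟨h1, h2⟩
    exact ⟨hP.trans he h.1 h1, hP.trans he h2 h.2⟩
  · rintro ⟨h1, h2⟩
    exact ⟨hP.trans he h.2 h1, hP.trans he h2 h.1⟩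

/-- A class of `e` is lost only if none of its states crosses `f`. -/
theorem not_X_of_lost (hP : PtsFacts Q) {e f : NB Q} (he : e * e = e) (hef : e * f = f)
    (hfe : f * e = f) {d : Bool} {u : Q} (hu : Pt e d u) (h : (d, cl e d u) ∈ Lost e f) :
    ¬ X e f d u u := by
  obtain ⟨x, hx, hcl, hX⟩ := h
  intro hXu
  apply hX
  have h1 : u ∈ cl e d x := by
    have h2 : cl e d u = cl e d x := hcl
    rw [← h2]
    exact self_mem_cl hu
  exact hP.invL he hef hfe h1.1 (hP.invR he hef hfe hXu h1.2)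

theorem count (hP : ∀ (Q : Type) [Finite Q], PtsFacts Q) : CountStmt := by
  classical
  intro Q _ e0 e f U he hf hef hfe hL
  have P := hP Q
  have fin : ∀ S : Set (Bool × Set Q), S.Finite := fun S => Set.toFinite S
  set F : Finset (Bool × Set Q) := (fin (UC e0 U f)).toFinset with hF
  set E : Finset (Bool × Set Q) := (fin (UC e0 U e)).toFinset with hE
  set L : Finset (Bool × Set Q) := (fin (Lost e f)).toFinset with hLdef
  have cF : (UC e0 U f).ncard = F.card := Set.ncard_eq_toFinset_card _ _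
  have cE : (UC e0 U e).ncard = E.card := Set.ncard_eq_toFinset_card _ _
  have cL : (Lost e f).ncard = L.card := Set.ncard_eq_toFinset_card _ _
  have mF : ∀ κ, κ ∈ F ↔ κ ∈ UC e0 U f := fun κ => by simp [hF]
  have mE : ∀ κ, κ ∈ E ↔ κ ∈ UC e0 U e := fun κ => by simp [hE]
  have mL : ∀ κ, κ ∈ L ↔ κ ∈ Lost e f := fun κ => by simp [hLdef]
  have hLE : L ⊆ E := fun κ h => (mE κ).2 (hL ((mL κ).1 h))
  let w : Bool × Set Q → ℕ := fun κ => if κ ∈ L then 1 else 2
  let r : Bool × Set Q → Bool × Set Q → Prop := fun k κ => κ.1 = k.1 ∧ κ.2 ⊆ k.2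
  -- the classes of `e` in a class of `f`
  have sub : ∀ d y u, Pt e d u → T f d y u → T f d u y → (d, cl f d y) ∈ UC e0 U f →
      (d, cl e d u) ∈ E ∧ cl e d u ⊆ cl f d y := by
    intro d y u hu h1 h2 hk
    have h3 : cl e d u ⊆ cl f d y := fun z hz =>
      ⟨P.subR he hf hef hfe h1 hz.1, P.subL he hf hef hfe hz.2 h2⟩
    exact ⟨(mE _).2 ⟨⟨u, hu, rfl⟩, fun x hx hx0 => hk.2 x (h3 hx) hx0⟩, h3⟩
  have one : ∀ k ∈ F, 2 ≤ ∑ κ ∈ E, if r k κ then w κ else 0 := by
    intro k hk
    obtain ⟨d, S⟩ := k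
    have hk' := (mF _).1 hk
    obtain ⟨y, hy, hS⟩ := hk'.1
    simp only at hy hS
    subst hS
    obtain ⟨u, v, hu, hv, h1, h2, h3, h4, hX⟩ := P.port he hf hef hfe hy
    obtain ⟨eu, su⟩ := sub d y u hu h1 h2 hk'
    obtain ⟨ev, sv⟩ := sub d y v hv h3 h4 hk'
    have ru : r (d, cl f d y) (d, cl e d u) := ⟨rfl, su⟩
    have rv : r (d, cl f d y) (d, cl e d v) := ⟨rfl, sv⟩
    have single : ∀ κ ∈ E, r (d, cl f d y) κ → κ ∉ L →
        2 ≤ ∑ κ ∈ E, if r (d, cl f d y) κ then w κ else 0 := by
      intro κ h5 h6 h7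
      have h8 := Finset.single_le_sum (f := fun κ => if r (d, cl f d y) κ then w κ else 0)
        (fun _ _ => Nat.zero_le _) h5
      have h9 : (if r (d, cl f d y) κ then w κ else 0) = 2 := by
        rw [if_pos h6]
        exact if_neg h7
      rw [h9] at h8
      exact h8
    by_cases lu : (d, cl e d u) ∈ L
    · by_cases lv : (d, cl e d v) ∈ L
      · have hne : ((d, cl e d u) : Bool × Set Q) ≠ (d, cl e d v) := by
          intro heq
          have h5 : cl e d u = cl e d v := (Prod.mk.inj heq).2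
          have h6 : v ∈ cl e d u := by
            rw [h5]
            exact self_mem_cl hv
          exact not_X_of_lost P he hef hfe hu ((mL _).1 lu) (P.invR he hef hfe hX h6.2)
        have h7 : ({(d, cl e d u), (d, cl e d v)} : Finset (Bool × Set Q)) ⊆ E := by
          intro κ hκ
          rw [Finset.mem_insert, Finset.mem_singleton] at hκ
          rcases hκ with rfl | rfl
          · exact eu
          · exact ev
        have h8 := Finset.sum_le_sum_of_subset
          (f := fun κ => if r (d, cl f d y) κ then w κ else 0) h7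
        rw [Finset.sum_pair hne, if_pos ru, if_pos rv] at h8
        have w1 : w (d, cl e d u) = 1 := if_pos lu
        have w2 : w (d, cl e d v) = 1 := if_pos lv
        rw [w1, w2] at h8
        exact h8
      · exact single _ ev rv lv
    · exact single _ eu ru lu
  have two : ∀ κ ∈ E, (∑ k ∈ F, if r k κ then w κ else 0) ≤ w κ := by
    intro κ hκ
    have hu : ∀ k ∈ F, ∀ k' ∈ F, r k κ → r k' κ → k = k' := by
      intro k hk k' hk' h1 h2
      obtain ⟨x, hx, hxc⟩ := ((mE _).1 hκ).1
      obtain ⟨y, hy, hyc⟩ := ((mF _).1 hk).1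
      obtain ⟨y', hy', hyc'⟩ := ((mF _).1 hk').1
      have hxx : x ∈ κ.2 := by
        rw [hxc]
        exact self_mem_cl hx
      have e1 : k.1 = k'.1 := h1.1.symm.trans h2.1
      have m1 := h1.2 hxx
      have m2 := h2.2 hxx
      rw [hyc] at m1
      rw [hyc'] at m2
      have q1 := cl_eq_of_mem P hf m1
      have q2 := cl_eq_of_mem P hf m2
      refine Prod.ext e1 ?_
      rw [hyc, hyc', ← q1, ← q2, e1]
    by_cases hex : ∃ k ∈ F, r k κ
    · obtain ⟨k, hk, hr⟩ := hex
      rw [Finset.sum_eq_single k, if_pos hr]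
      · intro k' hk' hne
        exact if_neg fun h => hne (hu k' hk' k hk h hr)
      · intro h
        exact absurd hk h
    · have : (∑ k ∈ F, if r k κ then w κ else 0) = 0 := by
        apply Finset.sum_eq_zero
        intro k hk
        exact if_neg fun h => hex ⟨k, hk, h⟩
      rw [this]
      exact Nat.zero_le _
  have s1 : 2 * F.card ≤ ∑ k ∈ F, ∑ κ ∈ E, if r k κ then w κ else 0 := by
    have := Finset.sum_le_sum one
    rw [Finset.sum_const, smul_eq_mul, Nat.mul_comm] at this
    exact this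
  rw [Finset.sum_comm] at s1
  have s2 : (∑ κ ∈ E, ∑ k ∈ F, if r k κ then w κ else 0) ≤ ∑ κ ∈ E, w κ :=
    Finset.sum_le_sum two
  have s3 : (∑ κ ∈ E, w κ) + L.card = 2 * E.card := by
    have h1 : (∑ κ ∈ E, w κ) = (E.filter (fun κ => κ ∈ L)).card * 1 +
        (E.filter (fun κ => κ ∉ L)).card * 2 := by
      have := Finset.sum_ite (s := E) (p := fun κ => κ ∈ L) (fun _ => 1) (fun _ => 2)
      simp only [Finset.sum_const, smul_eq_mul] at this
      exact this
    have h2 : E.filter (fun κ => κ ∈ L) = L := by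
      ext κ
      rw [Finset.mem_filter]
      exact ⟨fun h => h.2, fun h => ⟨hLE h, h⟩⟩
    have h3 := Finset.card_filter_add_card_filter_not (s := E) (fun κ => κ ∈ L)
    rw [h2] at h1 h3
    omega
  rw [cF, cE, cL]
  omega

end Vale.Agent.P343.H741
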